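import Vale.Agent.P318M.D2
import Vale.Agent.P318N.H1
import Vale.Agent.P318N.H2
import Vale.Agent.P318N.RL

/-! taylor: th1_conv in both directions and ph1_lip. phi: with A = min (|α|/η) 1, B = min (|β|/η) 1 the left side is ≤ 10 η A B (both small: th1_mix; |α| > η, |β| ≤ η: ≤ |β| by th1_conv, ph1_abs, th1_nonneg; both large: ≤ 2 η by th1_le, le_th1), then min_le_exp. -/

open Finset
open scoped BigOperators

noncomputable section

namespace Vale.Agent.P318.N

variable {m S N τ η J B Q ρ : ℕ} {ε K : ℝ} {u : Dir S N m} {th : Fin S → Fin N → Fin τ}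

theorem taylor (hη : 0 < η) (a h : ℤ) {H : ℝ} (hH : |(h : ℝ)| ≤ H) :
    0 ≤ th1 η (a + h) - th1 η a - ph1 η a * h ∧
      th1 η (a + h) - th1 η a - ph1 η a * h ≤ 2 * H * (2 * H + 1) / η := by
  have c1 := th1_conv (η := η) a (a + h)
  have c2 := th1_conv (η := η) (a + h) a
  have c3 := ph1_lip hη (a + h) a
  have he : (0 : ℝ) < η := Nat.cast_pos.2 hη
  have h0 : 0 ≤ |(h : ℝ)| := abs_nonneg _
  rw [Int.cast_add] at c1 c2 c3
  rw [add_sub_cancel_left] at c2 c3
  refine ⟨by linarith, ?_⟩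
  have c4 : (ph1 η (a + h) - ph1 η a) * h ≤ |ph1 η (a + h) - ph1 η a| * |(h : ℝ)| := by
    rw [← abs_mul]
    exact le_abs_self _
  have c5 : 2 * (2 * |(h : ℝ)| + 1) / η ≤ 2 * (2 * H + 1) / η :=
    div_le_div_of_nonneg_right (by linarith) he.le
  have c6 : |ph1 η (a + h) - ph1 η a| * |(h : ℝ)| ≤ 2 * (2 * H + 1) / η * H :=
    mul_le_mul (c3.trans c5) hH h0 (div_nonneg (by linarith) he.le)
  have c7 : 2 * (2 * H + 1) / η * H = 2 * H * (2 * H + 1) / η := by ring
  linarith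

theorem phi_one (α β : ℤ) : th1 η (α + β) - th1 η α - th1 η β ≤ |(β : ℝ)| := by
  have c1 := th1_conv (η := η) (α + β) α
  have c2 := th1_nonneg (η := η) β
  rw [Int.cast_add, add_sub_cancel_left] at c1
  have c3 : ph1 η (α + β) * β ≤ |ph1 η (α + β)| * |(β : ℝ)| := by
    rw [← abs_mul]
    exact le_abs_self _
  have c4 : |ph1 η (α + β)| * |(β : ℝ)| ≤ 1 * |(β : ℝ)| :=
    mul_le_mul_of_nonneg_right (ph1_abs _) (abs_nonneg _)
  linarith

theorem phi_min {e a b D : ℝ} (he : 0 < e) (ha : 0 ≤ a) (hb : 0 ≤ b) (h1 : D ≤ a) (h2 : D ≤ b)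
    (h3 : D ≤ 2 * e) (h4 : D ≤ 10 * (a * b) / e) :
    D ≤ 10 * (e * (min (a / e) 1 * min (b / e) 1)) := by
  rcases le_total (a / e) 1 with h5 | h5 <;> rcases le_total (b / e) 1 with h6 | h6
  · rw [min_eq_left h5, min_eq_left h6]
    refine h4.trans_eq ?_
    field_simp
  · rw [min_eq_left h5, min_eq_right h6, mul_one, mul_div_cancel₀ _ he.ne']
    linarith
  · rw [min_eq_right h5, min_eq_left h6, one_mul, mul_div_cancel₀ _ he.ne']
    linarith
  · rw [min_eq_right h5, min_eq_right h6]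
    linarith

theorem phi (hη : 0 < η) (α β : ℤ) : th1 η (α + β) - th1 η α - th1 η β ≤
    40 * (η * ((1 - Real.exp (-(|(α : ℝ)| / η))) * (1 - Real.exp (-(|(β : ℝ)| / η))))) := by
  have he : (0 : ℝ) < η := Nat.cast_pos.2 hη
  have h1 : th1 η (α + β) - th1 η α - th1 η β ≤ |(α : ℝ)| := by
    have := phi_one (η := η) β α
    rw [add_comm β α] at this
    linarith
  have h3 : th1 η (α + β) - th1 η α - th1 η β ≤ 2 * η := by
    have c1 := th1_le (η := η) (α + β)
    have c2 := le_th1 hη α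
    have c3 := le_th1 hη β
    have c4 := abs_add_le (α : ℝ) β
    rw [Int.cast_add] at c1
    linarith
  have h5 := phi_min he (abs_nonneg _) (abs_nonneg _) h1 (phi_one α β) h3 (th1_mix hη α β)
  have ha : 0 ≤ |(α : ℝ)| / η := div_nonneg (abs_nonneg _) he.le
  have hb : 0 ≤ |(β : ℝ)| / η := div_nonneg (abs_nonneg _) he.le
  have e1 := min_le_exp ha
  have e2 := min_le_exp hb
  have p1 : 0 ≤ min (|(α : ℝ)| / η) 1 / 2 := div_nonneg (le_min ha zero_le_one) zero_le_two
  have p2 : 0 ≤ min (|(β : ℝ)| / η) 1 / 2 := div_nonneg (le_min hb zero_le_one) zero_le_two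
  have e3 := mul_le_mul_of_nonneg_left (mul_le_mul e1 e2 p2 (p1.trans e1)) he.le
  linarith

end Vale.Agent.P318.N
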