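import Vale.Agent.P318M.D2
import Vale.Agent.P318N.H1
import Vale.Agent.P318N.H2
import Vale.Agent.P318N.Lip

/-! ee is Lipschitz. Induction on n = ∑ k, (w' k - w k).natAbs generalizing w: pick k with w k ≠ w' k, σ = sign (w' k - w k), w1 = w + Pi.single k σ is again in the box. One step: dt u w1 - dt u w = σ * u k; by th1_conv ee w1 - ee w ≤ 𝔼 s' i, ph1 (dt u w1) * (σ u k) - 𝔼 i, ph1 (dt (u s i) w) * (σ u k) ≤ ε / 2 (UC at w1) + 6 / η (ph1_lip, the arguments differ by 1). -/

open Finset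
open scoped BigOperators

noncomputable section

namespace Vale.Agent.P318.N

variable {m S N τ η J B Q ρ : ℕ} {ε K : ℝ} {u : Dir S N m} {th : Fin S → Fin N → Fin τ}

theorem ee_zero (s : Fin S) : ee u η s 0 = 0 := by
  simp [ee, dt, th1_zero]

theorem mb_step (hu : Sgn u) (hη : 0 < η) (hU : UC u η B ε) (h : 24 ≤ ε * η) (s : Fin S)
    (w : Pt m) (k : Fin m) {σ : ℤ} (hσ : σ = 1 ∨ σ = -1) (hw : ∀ l, |st w k σ l| ≤ B) :
    ee u η s (st w k σ) - ee u η s w ≤ 3 / 4 * ε := by
  have hη' : (0 : ℝ) < η := by exact_mod_cast hη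
  have hε : 0 < ε := by nlinarith
  rcases N.eq_zero_or_pos with rfl | hN
  · simp [ee, hε.le]
  have : Nonempty (Fin N) := ⟨⟨0, hN⟩⟩
  have e : ∀ v : Pt m, (dt v (st w k σ) : ℝ) - dt v w = σ * v k := fun v => by
    simp [dt, st, mul_add, sum_add_distrib, Pi.single_apply, mul_comm]
  have a1 : ∀ s' i, th1 η (dt (u s' i) (st w k σ)) - th1 η (dt (u s' i) w) ≤
      σ * (ph1 η (dt (u s' i) (st w k σ)) * u s' i k) := fun s' i =>
    (th1_conv _ _).trans_eq (by rw [e]; ring)
  have a2 : ∀ i, th1 η (dt (u s i) w) - th1 η (dt (u s i) (st w k σ)) ≤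
      ε / 4 - σ * (ph1 η (dt (u s i) (st w k σ)) * u s i k) := fun i => by
    have k0 : |(σ : ℝ) * u s i k| = 1 := by
      rcases hσ with h | h <;> rcases hu s i k with h' | h' <;> simp [h, h']
    have k1 := ph1_lip hη (dt (u s i) (st w k σ)) (dt (u s i) w)
    have k2 := th1_conv (η := η) (dt (u s i) w) (dt (u s i) (st w k σ))
    rw [← neg_sub (dt (u s i) (st w k σ) : ℝ), e] at k2
    rw [e, k0] at k1
    have k3 := le_abs_self ((ph1 η (dt (u s i) (st w k σ)) - ph1 η (dt (u s i) w)) * (σ * u s i k))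
    rw [abs_mul, k0] at k3
    have k4 : 2 * (2 * 1 + 1) / (η : ℝ) ≤ ε / 4 := by
      rw [div_le_iff₀ hη']
      linarith
    linarith
  have b1 := expect_le_expect (s := univ) fun s' _ => expect_le_expect (s := univ) fun i _ => a1 s' i
  have b2 := expect_le_expect (s := univ) fun i _ => a2 i
  have b3 := abs_le.1 (hU s _ k hw)
  simp only [expect_sub_distrib, ← mul_expect, Fintype.expect_const] at b1 b2
  unfold ee
  rcases hσ with h | h <;> simp only [h, Int.cast_neg, Int.cast_one] at b1 b2 b3 ⊢ <;>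
    linarith [b3.1, b3.2]

theorem ee_lip (hu : Sgn u) (hη : 0 < η) (hU : UC u η B ε) (h : 24 ≤ ε * η) (s : Fin S)
    {w w' : Pt m} (hw : ∀ l, |w l| ≤ B) (hw' : ∀ l, |w' l| ≤ B) :
    ee u η s w' - ee u η s w ≤ 3 / 4 * ε * ∑ k, |(w' k : ℝ) - w k| := by
  have e : ∑ k, |(w' k : ℝ) - w k| = (∑ k, (w' k - w k).natAbs : ℕ) := by
    simp [Nat.cast_natAbs]
  rw [e]
  clear e
  generalize hn : ∑ k, (w' k - w k).natAbs = n
  induction n generalizing w with
  | zero =>
    have : w' = w := funext fun k =>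
      sub_eq_zero.1 (Int.natAbs_eq_zero.1 (sum_eq_zero_iff.1 hn k (mem_univ k)))
    simp [this]
  | succ n ih =>
    obtain ⟨k, -, hk⟩ := exists_ne_zero_of_sum_ne_zero (hn.trans_ne n.succ_ne_zero)
    obtain ⟨σ, hσ, h1⟩ : ∃ σ : ℤ, (σ = 1 ∨ σ = -1) ∧
        (w' k - (w k + σ)).natAbs + 1 = (w' k - w k).natAbs := by
      rcases lt_or_ge (w k) (w' k) with h | h
      · exact ⟨1, Or.inl rfl, by omega⟩
      · exact ⟨-1, Or.inr rfl, by omega⟩
    have k0 : st w k σ k = w k + σ := by simp [st]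
    have k1 : ∀ l, l ≠ k → st w k σ l = w l := fun l hl => by simp [st, hl]
    have k2 : ∀ l, |st w k σ l| ≤ B := fun l => by
      by_cases hl : l = k
      · have a1 := abs_le.1 (hw k)
        have a2 := abs_le.1 (hw' k)
        rw [hl, k0, abs_le]
        omega
      · rw [k1 l hl]
        exact hw l
    have k3 := ih k2 (by
      rw [← add_sum_erase _ _ (mem_univ k)] at hn ⊢
      rw [sum_congr rfl fun l hl => by rw [k1 l (ne_of_mem_erase hl)], k0]
      omega)
    have k4 := mb_step hu hη hU h s w k hσ k2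
    push_cast
    linarith

end Vale.Agent.P318.N
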