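import Vale.Agent.P318M.D2
import Vale.Agent.P318N.NT2
import Vale.Agent.P318N.EN2

/-! Bounds. ds (uz) (tz) ε s x x' = ε * ∑ |x - x'| (average over the empty type), ds (uo u i) (to1 th i) 0 s x x' = τ * |lab u th s i x - lab u th s i x'|. pv_le, pv_le_ds, pv_nonneg, dd_le, dd_le_ds (J = 0), nt2_comm, nt2_kk, cnd_dd. -/

open Finset
open scoped BigOperators

noncomputable section

namespace Vale.Agent.P318.N

variable {m S N τ η J B Q ρ : ℕ} {ε K : ℝ} {u : Dir S N m} {th : Fin S → Fin N → Fin τ}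

theorem bd_comm (p q : Vx S m) : pv u th ε η J p q = pv u th ε η J q p :=
  sum_congr rfl fun j _ => by rw [nt2_comm]

theorem bd_self (p : Vx S m) : pv u th ε η J p p = 0 := by
  simp [pv, kk, ds_self]

theorem bd_cnd (hε : 0 ≤ ε) : CND (pv u th ε η J) :=
  cnd_sum (range (J + 1)) fun j _ =>
    (nt2_kk hε (lam := η / 2 ^ j) (by positivity)).smul (by positivity)

theorem ds_uz (s : Fin S) (x x' : Pt m) :
    ds (uz S m) (tz S τ) ε s x x' = ε * ∑ k, |(x k : ℝ) - x' k| := by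
  rw [ds, Finset.univ_eq_empty, expect_empty, mul_zero, zero_add]

theorem ds_uo (i : Fin N) (s : Fin S) (x x' : Pt m) :
    ds (uo u i) (to1 th i) 0 s x x' = τ * |(lab u th s i x : ℝ) - lab u th s i x'| := by
  rw [ds, zero_mul, add_zero]
  congr 1
  exact Fintype.expect_const (ι := Fin 1) |(lab u th s i x : ℝ) - lab u th s i x'|

theorem d2_comm (p q : Vx S m) : d2 u th ε η J p q = d2 u th ε η J q p := by
  unfold d2 p1
  rw [dd_comm, bd_comm, expect_congr rfl fun i _ => bd_comm (u := uo u i) (th := to1 th i) p q]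

theorem d2_self (p : Vx S m) : d2 u th ε η J p p = 0 := by
  simp [d2, p1, dd_self, bd_self]

theorem cnd_d2 (hε : 0 ≤ ε) : CND (d2 u th ε η J) := by
  exact ((cnd_dd hε).add ((bd_cnd hε).smul (by norm_num))).add
    ((cnd_expect fun i => bd_cnd (u := uo u i) (th := to1 th i) le_rfl).smul (by norm_num))

theorem dd_le_d2 (hε : 0 ≤ ε) (p q : Vx S m) : dd u th ε η 0 p q ≤ d2 u th ε η J p q := by
  have h1 := pv_nonneg (u := uz S m) (th := tz S τ) (η := η) (J := J) hε p q
  have h2 : 0 ≤ p1 u th η p q := expect_nonneg fun i _ => pv_nonneg le_rfl p q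
  unfold d2
  linarith

theorem d2_le (hu : Sgn u) (hτ : 0 < τ) (p q : Vx S m) :
    d2 u th ε η J p q ≤ ∑ k, |(p.2 k : ℝ) - q.2 k| + (2 * S * τ + 144 * η) := by
  have h1 := dd_le (th := th) (ε := ε) (η := η) (J := 0) hu hτ p q
  have h2 := pv_le (u := uz S m) (th := tz S τ) (ε := ε) (η := η) (J := J) p q
  have h3 : p1 u th η p q ≤ 2 * η := en2_exp_le (by positivity) fun i => pv_le p q
  unfold d2
  linarith

theorem d2_le_ds (hu : Sgn u) (hτ : 0 < τ) (hη : 0 < η) (hN : 0 < N) (hε : 0 < ε)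
    (hU : UC u η B ε) (h : 40 * S * τ ≤ ε * η) (s : Fin S) {x x' : Pt m}
    (hx : (s, x) ∈ Box S m B) (hx' : (s, x') ∈ Box S m B) :
    d2 u th ε η J (s, x) (s, x') ≤ 57 * ds u th ((J + 1) * ε) s x x' := by
  have h1 := dd_le_ds (th := th) (J := 0) hu hτ hη hN hU h s hx hx'
  have h2 := pv_le_ds (u := uz S m) (th := tz S τ) (ε := ε) (J := J) hη s x x'
  have h3 : p1 u th η (s, x) (s, x') ≤
      τ * 𝔼 i, |(lab u th s i x : ℝ) - lab u th s i x'| := by
    rw [mul_expect]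
    refine expect_le_expect fun i _ => ?_
    have := pv_le_ds (u := uo u i) (th := to1 th i) (ε := 0) (J := 0) hη s x x'
    rw [ds_uo] at this
    simpa using this
  rw [ds_uz] at h2
  have h4 : 0 ≤ ε * ∑ k, |(x k : ℝ) - x' k| :=
    mul_nonneg hε.le (sum_nonneg fun k _ => abs_nonneg _)
  have h5 : 0 ≤ (J : ℝ) * (ε * ∑ k, |(x k : ℝ) - x' k|) := mul_nonneg (Nat.cast_nonneg J) h4
  unfold ds at h1 ⊢
  unfold d2
  push_cast at h1
  nlinarith

end Vale.Agent.P318.N
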