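import Vale.Agent.P318M.A
import Vale.Agent.P318N.Lip

/-! sm inside a chart. α = dt (u s i) (x - y), t = τ * (lab x - lab y), r = t - α = res y - res x, |r| ≤ τ. By yy_sub and lip_ite-type averaging over s': sm = 𝔼 s' i, th1 (dt (u s' i) (x - y)) + (1 / S) 𝔼 i, (th1 (α + S r) - th1 α). taylor with h = S r (H = S τ) and with h = r (H = τ): (1 / S) (th1 (α + S r) - th1 α) - (th1 (α + r) - th1 α) lies in [-6 S τ² / η, 6 S τ² / η]. -/

open Finset
open scoped BigOperators

noncomputable section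

namespace Vale.Agent.P318.N

variable {m S N τ η J B Q ρ : ℕ} {ε K : ℝ} {u : Dir S N m} {th : Fin S → Fin N → Fin τ}

theorem c_abs {g : Fin N → ℝ} {c : ℝ} (hc : 0 ≤ c) (h : ∀ i, |g i| ≤ c) : |𝔼 i, g i| ≤ c := by
  rcases isEmpty_or_nonempty (Fin N) with h0 | h0
  · rw [Finset.univ_eq_empty, Finset.expect_empty, abs_zero]
    exact hc
  · refine abs_le.2 ⟨?_, ?_⟩
    · exact (Fintype.expect_const (ι := Fin N) (-c)).ge.trans
        (Finset.expect_le_expect fun i _ => (abs_le.1 (h i)).1)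
    · exact (Finset.expect_le_expect fun i _ => (abs_le.1 (h i)).2).trans
        (Fintype.expect_const (ι := Fin N) c).le

theorem c_res (hτ : 0 < τ) (s : Fin S) (i : Fin N) (x y : Pt m) :
    |((τ * (lab u th s i x - lab u th s i y) - dt (u s i) (x - y) : ℤ) : ℝ)| ≤ τ := by
  have h0 : (0 : ℤ) < τ := by exact_mod_cast hτ
  have e : τ * (lab u th s i x - lab u th s i y) - dt (u s i) (x - y) =
      res u th s i y - res u th s i x := by
    simp only [lip_dt, res, lab, Int.emod_def]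
    ring
  have h1 : 0 ≤ res u th s i x := Int.emod_nonneg _ h0.ne'
  have h2 : res u th s i x < τ := Int.emod_lt_of_pos _ h0
  have h3 : 0 ≤ res u th s i y := Int.emod_nonneg _ h0.ne'
  have h4 : res u th s i y < τ := Int.emod_lt_of_pos _ h0
  have h5 : |res u th s i y - res u th s i x| ≤ τ := abs_le.2 ⟨by omega, by omega⟩
  rw [e]
  exact_mod_cast h5

theorem c_tay (hτ : 0 < τ) (hη : 0 < η) (hS : 0 < S) (a r : ℤ) (hr : |(r : ℝ)| ≤ τ) :
    |(th1 η (a + S * r) - th1 η a) / S - th1 η (a + r) + th1 η a| ≤ 6 * S * τ ^ 2 / η := by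
  have hη' : (0 : ℝ) < η := by exact_mod_cast hη
  have hτ' : (1 : ℝ) ≤ τ := by exact_mod_cast hτ
  have hS' : (1 : ℝ) ≤ S := by exact_mod_cast hS
  have hS0 : (0 : ℝ) < S := by linarith
  have h1 := taylor hη a r hr
  have h2 := taylor hη a (S * r) (H := S * τ) (by
    push_cast
    rw [abs_mul, abs_of_pos hS0]
    exact mul_le_mul_of_nonneg_left hr hS0.le)
  have e : (th1 η (a + S * r) - th1 η a) / S - th1 η (a + r) + th1 η a =
      (th1 η (a + S * r) - th1 η a - ph1 η a * ((S * r : ℤ) : ℝ)) / S -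
        (th1 η (a + r) - th1 η a - ph1 η a * r) := by
    push_cast
    field_simp
    ring
  have a0 : (1 : ℝ) ≤ S * τ := one_le_mul_of_one_le_of_one_le hS' hτ'
  have a1 : (τ : ℝ) ≤ S * τ := le_mul_of_one_le_left (by linarith) hS'
  have b1 : 2 * (τ : ℝ) * (2 * τ + 1) / η ≤ 6 * S * τ ^ 2 / η :=
    div_le_div_of_nonneg_right (by nlinarith) hη'.le
  have b2 : 2 * (S * τ : ℝ) * (2 * (S * τ) + 1) / η / S ≤ 6 * S * τ ^ 2 / η := by
    have e2 : 2 * (S * τ : ℝ) * (2 * (S * τ) + 1) / η / S = 2 * τ * (2 * (S * τ) + 1) / η := by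
      field_simp
    rw [e2]
    exact div_le_div_of_nonneg_right (by nlinarith) hη'.le
  have c1 := div_nonneg h2.1 hS0.le
  have c2 := div_le_div_of_nonneg_right h2.2 hS0.le
  rw [e, abs_le]
  constructor <;> linarith [h1.1, h1.2]

theorem sm_dec (hτ : 0 < τ) (hη : 0 < η) (s : Fin S) (x y : Pt m) :
    |sm u th η (s, x) (s, y) - (𝔼 i, th1 η (τ * (lab u th s i x - lab u th s i y))) -
      ee u η s (x - y)| ≤ 6 * S * τ ^ 2 / η := by
  have hS : (S : ℝ) ≠ 0 := Nat.cast_ne_zero.2 s.pos.ne'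
  obtain ⟨W, hW⟩ : ∃ W : Fin N → ℝ, ∀ i, W i = (th1 η (dt (u s i) (x - y) +
      S * (τ * (lab u th s i x - lab u th s i y) - dt (u s i) (x - y))) -
        th1 η (dt (u s i) (x - y))) / S := ⟨_, fun _ => rfl⟩
  have h1 : ∀ s', (𝔼 i, th1 η (yy u th (s, x) s' i - yy u th (s, y) s' i)) =
      (𝔼 i, th1 η (dt (u s' i) (x - y))) + if s' = s then S * 𝔼 i, W i else 0 := fun s' => by
    simp only [yy_sub]
    split_ifs with h
    · subst h
      rw [Finset.mul_expect, ← Finset.expect_add_distrib]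
      refine Finset.expect_congr rfl fun i _ => ?_
      rw [hW, mul_div_cancel₀ _ hS]
      ring
    · simp only [add_zero]
  have h2 : sm u th η (s, x) (s, y) - (𝔼 i, th1 η (τ * (lab u th s i x - lab u th s i y))) -
      ee u η s (x - y) = 𝔼 i, (W i - th1 η (τ * (lab u th s i x - lab u th s i y)) +
        th1 η (dt (u s i) (x - y))) := by
    unfold sm ee
    simp only [h1]
    rw [Finset.expect_add_distrib, lip_ite, Finset.expect_add_distrib, Finset.expect_sub_distrib]
    ring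
  rw [h2]
  refine c_abs (by positivity) fun i => ?_
  have h3 := c_tay hτ hη s.pos (dt (u s i) (x - y)) _ (c_res (u := u) (th := th) hτ s i x y)
  rwa [add_sub_cancel, ← hW] at h3

end Vale.Agent.P318.N
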