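import Vale.Agent.P318N.EN2

/-! The energy of any family of kernels with the two bounds: copy the proof of `energy` (P318N/EN2.lean), with L for 16 J + 17 and A for 2 S τ + 32 η. -/

open Finset
open scoped BigOperators

noncomputable section

namespace Vale.Agent.P318.N

variable {m S N τ η J B Q ρ : ℕ} {ε K : ℝ} {u : Dir S N m} {th : Fin S → Fin N → Fin τ}

theorem eng_err [NeZero m] (hu : Sgn u) (hτ : 0 < τ) (hε : 0 < ε) {κ : Vx S m → Vx S m → ℝ}
    {L : ℝ} (hL : 0 ≤ L) (k2 : ∀ s x x', (s, x) ∈ Box S m (Q + ρ) → (s, x') ∈ Box S m (Q + ρ) →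
      κ (s, x) (s, x') ≤ L * ds u th ε s x x') (s : Fin S) (z : Fin m → Fin Q)
    (ξ : Fin m → Fin ρ) :
    err u th κ s (pos z ξ) ≤ L * (4 * m *
      (2 * ε + 2 * τ * if 2 ≤ #(adj u th s (pos z ξ)) then (1 : ℝ) else 0)) := by
  set c : ℝ := L * (2 * ε + 2 * τ * if 2 ≤ #(adj u th s (pos z ξ)) then (1 : ℝ) else 0)
    with hc
  have hi : (0 : ℝ) ≤ if 2 ≤ #(adj u th s (pos z ξ)) then (1 : ℝ) else 0 := by
    split_ifs <;> norm_num
  have hc0 : 0 ≤ c := by positivity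
  have hcard : #({1, -1} : Finset ℤ) = 2 := by decide
  unfold err
  refine le_trans (sum_le_card_nsmul _ _ (2 • 2 • c) fun k _ => ?_) (le_of_eq ?_)
  · rw [← hcard]
    refine sum_le_card_nsmul _ _ _ fun σ hσ => sum_le_card_nsmul _ _ _ fun σ' hσ' => ?_
    have hσ1 : σ = 1 ∨ σ = -1 := by simpa using hσ
    have hσ2 : σ' = 1 ∨ σ' = -1 := by simpa using hσ'
    have hl := en2_st (pos z ξ) k 0 hσ1 hσ2
    split_ifs with hcond
    · refine (k2 s _ _ (st_mem s z ξ k hσ1) (st_mem s z ξ 0 hσ2)).trans ?_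
      refine mul_le_mul_of_nonneg_left ?_ hL
      unfold ds
      have h2 := mul_le_mul_of_nonneg_left hl hε.le
      have hτ' : (0 : ℝ) ≤ τ := by positivity
      rcases hcond with hcond | hcond
      · simp only [hcond, sub_self, abs_zero, expect_const_zero, mul_zero]
        have := mul_nonneg hτ' hi
        linarith
      · rw [hcard] at hcond
        rw [if_pos hcond]
        have h3 := mul_le_mul_of_nonneg_left (en2_exp_le (by norm_num) fun i =>
          en2_lab (th := th) hu hτ s i hl) hτ'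
        linarith
    · exact hc0
  · simp only [card_univ, Fintype.card_fin, nsmul_eq_mul, hc]
    push_cast
    ring

theorem eng_win {κ : Vx S m → Vx S m → ℝ} {A : ℝ}
    (k1 : ∀ p q, κ p q ≤ ∑ k, |(p.2 k : ℝ) - q.2 k| + A) (h3 : m * (ρ + 1) + A ≤ Q) :
    win Q ρ κ ≤ Q := by
  refine en2_exp_le (by positivity) fun o => en2_exp_le (by positivity) fun s' =>
    en2_exp_le (by positivity) fun ξ => (k1 _ _).trans (le_trans ?_ h3)
  have : ∑ k, |(((av o).2 k : ℤ) : ℝ) - (pos o.2.1 ξ k : ℤ)| ≤ (m : ℝ) * (ρ + 1) := by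
    refine le_trans (sum_le_card_nsmul _ _ ((ρ : ℝ) + 1) fun k _ => ?_) (by simp [mul_add])
    have a : (((o.2.2 k : ℕ) : ℝ)) < (ρ + 2 : ℕ) := by exact_mod_cast (o.2.2 k).2
    have a' : (((o.2.2 k : ℕ) : ℝ)) + 1 ≤ (ρ + 2 : ℕ) := by exact_mod_cast (o.2.2 k).2
    have b : (((ξ k : ℕ) : ℝ)) < ρ := by exact_mod_cast (ξ k).2
    have a0 : (0 : ℝ) ≤ (o.2.2 k : ℕ) := by positivity
    have b0 : (0 : ℝ) ≤ (ξ k : ℕ) := by positivity
    simp only [av, opos, pos]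
    push_cast at a a' ⊢
    rw [abs_le]
    constructor <;> linarith
  simpa using this

theorem eng_face {κ : Vx S m → Vx S m → ℝ} {A : ℝ}
    (k1 : ∀ p q, κ p q ≤ ∑ k, |(p.2 k : ℝ) - q.2 k| + A) (s s' : Fin S) (z : Fin m → Fin Q)
    (ξ : Fin m → Fin ρ) (k : Fin m) {b b' : ℕ} (hb : b ≤ b' + 1) (hb' : b' ≤ b + 1) :
    κ (s', face z ξ k b) (s, face z ξ k b') ≤ 1 + A := by
  refine (k1 _ _).trans ?_
  have : ∑ l, |((face z ξ k b l : ℤ) : ℝ) - (face z ξ k b' l : ℤ)| ≤ 1 := by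
    rw [Finset.sum_eq_single k]
    · have c : (b : ℝ) ≤ b' + 1 := by exact_mod_cast hb
      have c' : (b' : ℝ) ≤ b + 1 := by exact_mod_cast hb'
      simp only [face, Function.update_self]
      push_cast
      rw [abs_le]
      constructor <;> linarith
    · intro l _ hl
      simp [face, Function.update_of_ne hl]
    · simp
  simpa using this

theorem eng_fac {κ : Vx S m → Vx S m → ℝ} {A : ℝ} (hA : 0 ≤ A)
    (k1 : ∀ p q, κ p q ≤ ∑ k, |(p.2 k : ℝ) - q.2 k| + A) (h4 : 4 * m * (1 + A) ≤ ρ) (s : Fin S)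
    (z : Fin m → Fin Q) : fac ρ κ s z ≤ ρ := by
  refine le_trans (sum_le_card_nsmul _ _ (4 * (1 + A)) fun k _ => ?_) ?_
  · refine en2_exp_le (by positivity) fun s' => en2_exp_le (by positivity) fun ξ => ?_
    have a := eng_face k1 s s' z ξ k
      (b := ρ + 1) (b' := ρ + 1) (by omega) (by omega)
    have b := eng_face k1 s s' z ξ k
      (b := ρ + 1) (b' := ρ) (by omega) (by omega)
    have c := eng_face k1 s s' z ξ k
      (b := 1) (b' := 1) (by omega) (by omega)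
    have d := eng_face k1 s s' z ξ k
      (b := 1) (b' := 0) (by omega) (by omega)
    linarith
  · simp only [card_univ, Fintype.card_fin, nsmul_eq_mul]
    linarith

theorem energy_gen [NeZero m] (hu : Sgn u) (hτ : 0 < τ) (hN : 0 < N) (hε : 0 < ε)
    {κ : (Fin S → Fin N → Fin τ) → Vx S m → Vx S m → ℝ} {A L : ℝ} (hA : 0 ≤ A) (hL : 1 ≤ L)
    (k1 : ∀ th p q, κ th p q ≤ ∑ k, |(p.2 k : ℝ) - q.2 k| + A)
    (k2 : ∀ th s x x', (s, x) ∈ Box S m (Q + ρ) → (s, x') ∈ Box S m (Q + ρ) →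
      κ th (s, x) (s, x') ≤ L * ds u th ε s x x')
    (h1 : 8 * m * ε ≤ 1) (h2 : 64 * m * N ^ 2 ≤ τ) (h3 : m * (ρ + 1) + A ≤ Q)
    (h4 : 4 * m * (1 + A) ≤ ρ) :
    ∃ th : Fin S → Fin N → Fin τ, cost u th Q ρ (κ th) ≤ 8 * L := by
  have : Nonempty (Fin τ) := ⟨⟨0, hτ⟩⟩
  have hm : (1 : ℝ) ≤ m := by exact_mod_cast Nat.pos_of_ne_zero (NeZero.ne m)
  have hτ' : (0 : ℝ) < τ := by exact_mod_cast hτ
  have h2' : 64 * (m : ℝ) * N ^ 2 ≤ τ := by exact_mod_cast h2
  let G : (Fin S → Fin N → Fin τ) → Fin S → Pt m → ℝ := fun th s x =>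
    L * (ds u th ε s (st x 0 1) (st x 0 (-1)) + 4 * m *
      (2 * ε + 2 * τ * if 2 ≤ #(adj u th s x) then (1 : ℝ) else 0))
  have hG : ∀ s x, 𝔼 th, G th s x ≤ 4 * L := by
    intro s x
    have a := en2_avg_ds (N := N) hu hτ hε.le s (en2_st x 0 0 (Or.inl rfl) (Or.inr rfl))
    have b := avg_adj hτ u s x
    simp only [G, ← mul_expect, expect_add_distrib, expect_const univ_nonempty]
    rw [mul_comm (4 : ℝ) L]
    refine mul_le_mul_of_nonneg_left ?_ (by linarith)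
    have c : 8 * (m : ℝ) * τ * (4 * N ^ 2 / τ ^ 2) ≤ 1 / 2 := by
      have : 8 * (m : ℝ) * τ * (4 * N ^ 2 / τ ^ 2) = 32 * m * N ^ 2 / τ := by
        field_simp
        ring
      rw [this, div_le_iff₀ hτ']
      linarith
    have d := mul_le_mul_of_nonneg_left b (show (0 : ℝ) ≤ 8 * m * τ by positivity)
    have e : 8 * ε ≤ 1 := by nlinarith
    nlinarith
  have hF : 𝔼 th, 𝔼 s, 𝔼 z : Fin m → Fin Q, 𝔼 ξ : Fin m → Fin ρ, G th s (pos z ξ) ≤
      4 * L := by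
    rw [expect_comm]
    refine en2_exp_le (by linarith) fun s => ?_
    rw [expect_comm]
    refine en2_exp_le (by linarith) fun z => ?_
    rw [expect_comm]
    exact en2_exp_le (by linarith) fun ξ => hG s _
  obtain ⟨th, -, hth⟩ := exists_le_of_expect_le univ_nonempty hF
  refine ⟨th, ?_⟩
  have w : win Q ρ (κ th) / Q ≤ 1 :=
    div_le_one_of_le₀ (eng_win (k1 th) h3) (by positivity)
  have f : 𝔼 s, 𝔼 z : Fin m → Fin Q, fac ρ (κ th) s z / ρ ≤ 1 :=
    en2_exp_le zero_le_one fun s => en2_exp_le zero_le_one fun z =>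
      div_le_one_of_le₀ (eng_fac hA (k1 th) h4 s z) (by positivity)
  have g : 𝔼 s, 𝔼 z : Fin m → Fin Q, 𝔼 ξ : Fin m → Fin ρ,
      (κ th (s, st (pos z ξ) 0 1) (s, st (pos z ξ) 0 (-1)) +
        err u th (κ th) s (pos z ξ)) ≤
      𝔼 s, 𝔼 z : Fin m → Fin Q, 𝔼 ξ : Fin m → Fin ρ, G th s (pos z ξ) := by
    refine expect_le_expect fun s _ => expect_le_expect fun z _ => expect_le_expect fun ξ _ => ?_
    have a := k2 th s _ _ (st_mem s z ξ 0 (Or.inl rfl))
      (st_mem s z ξ 0 (Or.inr rfl))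
    have b := eng_err hu hτ hε (zero_le_one.trans hL) (k2 th) s z ξ
    simp only [G]
    linarith
  unfold cost
  have e : 𝔼 s, 𝔼 z : Fin m → Fin Q, (fac ρ (κ th) s z / ρ + 𝔼 ξ : Fin m → Fin ρ,
      (κ th (s, st (pos z ξ) 0 1) (s, st (pos z ξ) 0 (-1)) +
        err u th (κ th) s (pos z ξ))) =
      𝔼 s, 𝔼 z : Fin m → Fin Q, fac ρ (κ th) s z / ρ +
      𝔼 s, 𝔼 z : Fin m → Fin Q, 𝔼 ξ : Fin m → Fin ρ,
      (κ th (s, st (pos z ξ) 0 1) (s, st (pos z ξ) 0 (-1)) +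
        err u th (κ th) s (pos z ξ)) := by
    rw [← expect_add_distrib]
    exact expect_congr rfl fun s _ => expect_add_distrib _ _ _
  rw [e]
  linarith

end Vale.Agent.P318.N
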