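import Vale.Agent.P318M.Tr
import Vale.Agent.P318M.En
import Vale.Agent.P318N.Core

/-! Assembly: copy `core` (P318N/Core.lean) with d = d2, E = 8 * 57; energy_gen with ε := (J + 1) * ε, A = 2 S τ + 144 η, L = 57 (d2_le, d2_le_ds); average distance from avg_dd (J = 0) and dd_le_d2; 40 S τ ≤ 40 S τ² since τ ≥ 1. -/

open Finset
open scoped BigOperators

noncomputable section

namespace Vale.Agent.P318.N

variable {m S N τ η J B Q ρ : ℕ} {ε K : ℝ} {u : Dir S N m} {th : Fin S → Fin N → Fin τ}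

theorem core2 (hm : 0 < m) (hu : Sgn u) (hτ : 0 < τ) (hη : 0 < η) (hN : 0 < N) (hS : 0 < S)
    (hε : 0 < ε) (hK1 : 1 ≤ K) (hG : GC u K) (hU : UC u η (Q + ρ) ε)
    (h : 40 * S * τ ^ 2 ≤ ε * η) (hJ : 2 * η / ε ≤ 2 ^ J) (h1 : 8 * m * ((J + 1) * ε) ≤ 1)
    (h2 : 64 * m * N ^ 2 ≤ τ) (h3 : 20 * (m * (ρ + 1) + 2 * S * τ + 144 * η) ≤ Q)
    (h4 : 4 * m * (1 + 2 * S * τ + 144 * η) ≤ ρ) :
    Vale.Agent.P318N.Inst ((S * (Q ^ m * (ρ + 2) ^ m) : ℕ) : ℝ) (√m / (640 * K * 57)) := by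
  haveI : NeZero m := ⟨hm.ne'⟩
  have hQ2 : 2 ≤ Q := by omega
  have hQ : 0 < Q := by omega
  have hρ : 0 < ρ := lt_of_lt_of_le (by positivity) h4
  have h5 : (20 : ℝ) * (m * (ρ + 1) + 2 * S * τ + 144 * η) ≤ Q := by exact_mod_cast h3
  have h4' : (4 : ℝ) * m * (1 + 2 * S * τ + 144 * η) ≤ ρ := by exact_mod_cast h4
  have hτ1 : (1 : ℝ) ≤ τ := by exact_mod_cast hτ
  have h' : (40 : ℝ) * S * τ ≤ ε * η :=
    (mul_le_mul_of_nonneg_left (le_self_pow₀ hτ1 two_ne_zero) (by positivity)).trans h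
  have h8 : (0 : ℝ) ≤ m * (ρ + 1) + 2 * S * τ + 144 * η := by positivity
  obtain ⟨th, hth⟩ := energy_gen (Q := Q) (ρ := ρ) (ε := (J + 1) * ε)
    (κ := fun th => d2 u th ε η J) (A := 2 * S * τ + 144 * η) (L := 57) hu hτ hN (by positivity)
    (by positivity) (by norm_num) (fun th p q => d2_le hu hτ p q)
    (fun th s x x' hx hx' => d2_le_ds hu hτ hη hN hε hU h' s hx hx') h1 h2 (by linarith)
    (by rwa [← add_assoc])
  haveI : Nonempty (Om S m Q ρ) := ⟨(⟨0, hS⟩, fun _ => ⟨0, hQ⟩, fun _ => ⟨0, by omega⟩)⟩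
  have hQ' : (0 : ℝ) < Q := by exact_mod_cast hQ
  have hK : 0 < K := lt_of_lt_of_le one_pos hK1
  have hm1 : (1 : ℝ) ≤ √m := Real.one_le_sqrt.2 (by exact_mod_cast hm)
  have hcard : Fintype.card (Om S m Q ρ) = S * (Q ^ m * (ρ + 2) ^ m) := by
    simp only [Fintype.card_prod, Fintype.card_fun, Fintype.card_fin]
  rw [← hcard]
  refine transfer (av : Om S m Q ρ → Vx S m) av_mem (fun p hp => box_range hQ hp)
    (pos_cost (u := u) (th := th)) (d := d2 u th ε η J) d2_comm d2_self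
    (fun p hp q hq r hr => d2_tri hu hτ hη hN hε hU h hJ hp hq hr) (cnd_d2 hε.le)
    (G := 1 / (4 * Q * K)) (E := 8 * 57) (D := Q * √m / 20) (by positivity)
    (by positivity) (by positivity) (fun F => ?_) hth ?_ (le_of_eq ?_)
  · rw [one_div, inv_mul_le_iff₀ (by positivity)]
    exact cut_bound hu hτ hN hS hρ hQ hK1 hG F
  · refine le_trans ?_ ((avg_dd (J := 0) (th := th) hu hτ hη hN hS hε.le hQ2).trans
      (expect_le_expect fun o _ => expect_le_expect fun o' _ => dd_le_d2 hε.le _ _))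
    have h6 : (Q : ℝ) ≤ Q * √m := le_mul_of_one_le_right hQ'.le hm1
    have h7 : (0 : ℝ) ≤ η := Nat.cast_nonneg η
    linarith
  · field_simp
    norm_num

end Vale.Agent.P318.N
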