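import Vale.Agent.P318N.D

/-! Definitions of the repaired distance without a logarithmic loss. FROZEN. -/

open Finset
open scoped BigOperators

noncomputable section

namespace Vale.Agent.P318.N

variable {m S N τ η J B Q ρ : ℕ} {ε K : ℝ} {u : Dir S N m} {th : Fin S → Fin N → Fin τ}

/-- No directions. -/
def uz (S m : ℕ) : Dir S 0 m := fun _ i => i.elim0

/-- No offsets. -/
def tz (S τ : ℕ) : Fin S → Fin 0 → Fin τ := fun _ i => i.elim0

/-- One direction in each chart. -/
def uo (u : Dir S N m) (i : Fin N) : Dir S 1 m := fun s _ => u s i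

/-- One offset in each chart. -/
def to1 (th : Fin S → Fin N → Fin τ) (i : Fin N) : Fin S → Fin 1 → Fin τ := fun s _ => th s i

/-- The private part seen by the single directions. -/
def p1 (u : Dir S N m) (th : Fin S → Fin N → Fin τ) (η : ℕ) (p q : Vx S m) : ℝ :=
  𝔼 i, pv (uo u i) (to1 th i) 0 η 0 p q

/-- The distance. -/
def d2 (u : Dir S N m) (th : Fin S → Fin N → Fin τ) (ε : ℝ) (η J : ℕ) (p q : Vx S m) : ℝ :=
  dd u th ε η 0 p q + 16 * pv (uz S m) (tz S τ) ε η J p q + 40 * p1 u th η p q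

/-- The deviation of a chart from the mean. -/
def ee (u : Dir S N m) (η : ℕ) (s : Fin S) (w : Pt m) : ℝ :=
  (𝔼 s', 𝔼 i, th1 η (dt (u s' i) w)) - 𝔼 i, th1 η (dt (u s i) w)

end Vale.Agent.P318.N
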