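import Vale.Agent.P318N.RC2
import Vale.Agent.P318N.RC3

/-! Existence of the directions for S = m², N = m⁷, B ≤ 2 m^41, ε = 1/m²: copy `ex_dir` (P318N/Ex.lean). (4 m^41 + 1)^m ≤ exp (43 m²), N ε² / 128 = m³ / 128; (2m+1)^m * 4 ≤ 2^(m²); K = √(16 log m): exp (K²/2) = m^8 ≥ 32 m⁷. -/

open Finset
open scoped BigOperators

noncomputable section

namespace Vale.Agent.P318.N

variable {m S N τ η J B Q ρ : ℕ} {ε K : ℝ} {u : Dir S N m} {th : Fin S → Fin N → Fin τ}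

theorem ex2_union (hm : 0 < m) (hN : 0 < N) (hε : 0 < ε) (hK : 0 ≤ K)
    (h : 32 * N ≤ Real.exp (K ^ 2 / 2))
    (h1 : (S : ℝ) * m * (2 * B + 1) ^ m * (2 * Real.exp (-(N * ε ^ 2 / 128))) < 1 / 2)
    (h2 : ((2 * m + 1) ^ m / 2 ^ S : ℝ) ≤ 1 / 2) :
    ∃ u : Dir S N m, Sgn u ∧ UC u η B ε ∧ GC u (2 * K + 1) := by
  have h3 := add_le_add (uc_prob (S := S) (m := m) (η := η) (B := B) hN hε)
    (gc_prob (S := S) hm hK h)
  rw [← expect_add_distrib] at h3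
  obtain ⟨ω, -, hω⟩ := exists_lt_of_expect_lt univ_nonempty
    (h3.trans_lt (show _ < (1 : ℝ) by linarith))
  refine ⟨fun s i => sg (ω s i), fun s i k => ?_, ?_, ?_⟩
  · simp only [sg]
    split_ifs
    · exact Or.inl rfl
    · exact Or.inr rfl
  · by_contra hn
    rw [if_neg hn] at hω
    split_ifs at hω <;> linarith
  · by_contra hn
    rw [if_neg hn] at hω
    split_ifs at hω <;> linarith

theorem ex_dir2 : ∃ m0 : ℕ, ∀ m ≥ m0, ∀ η B : ℕ, B ≤ 2 * m ^ 41 → ∃ u : Dir (m ^ 2) (m ^ 7) m,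
    Sgn u ∧ UC u η B (1 / (m : ℝ) ^ 2) ∧ GC u (2 * √(16 * Real.log m) + 1) := by
  refine ⟨10000, fun m hm η B hB => ?_⟩
  have hx : (10000 : ℝ) ≤ m := by exact_mod_cast hm
  have h0 : (0 : ℝ) < m := by linarith
  have h1 : (1 : ℝ) ≤ m := by linarith
  have he : (m : ℝ) ≤ Real.exp m := by linarith [Real.add_one_le_exp (m : ℝ)]
  refine ex2_union (by omega) (by positivity) (by positivity) (Real.sqrt_nonneg _) ?_ ?_ ?_
  · have hl : 0 ≤ 16 * Real.log m := mul_nonneg (by norm_num) (Real.log_nonneg h1)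
    have hE : √(16 * Real.log m) ^ 2 / 2 = (8 : ℕ) * Real.log m := by
      rw [Real.sq_sqrt hl, Nat.cast_ofNat]
      ring
    rw [hE, Real.exp_nat_mul, Real.exp_log h0, Nat.cast_pow, pow_succ' (m : ℝ) 7]
    exact mul_le_mul_of_nonneg_right (by linarith) (by positivity)
  · have hB' : (B : ℝ) ≤ 2 * m ^ 41 := by exact_mod_cast hB
    have h41 : (1 : ℝ) ≤ m ^ 41 := one_le_pow₀ h1
    have hA : (2 * B + 1 : ℝ) ≤ Real.exp ((42 : ℕ) * m) := by
      rw [Real.exp_nat_mul]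
      calc (2 * B + 1 : ℝ) ≤ m ^ 41 * m := by nlinarith
        _ = m ^ 42 := (pow_succ _ _).symm
        _ ≤ _ := pow_le_pow_left₀ h0.le he 42
    have hP : (2 * B + 1 : ℝ) ^ m ≤ Real.exp (m * ((42 : ℕ) * m)) := by
      rw [Real.exp_nat_mul]
      exact pow_le_pow_left₀ (by positivity) hA m
    have h4 : (m : ℝ) ^ 4 ≤ Real.exp ((4 : ℕ) * m) := by
      rw [Real.exp_nat_mul]
      exact pow_le_pow_left₀ h0.le he 4
    have hE : ((m ^ 7 : ℕ) : ℝ) * (1 / (m : ℝ) ^ 2) ^ 2 / 128 = m ^ 3 / 128 := by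
      rw [Nat.cast_pow]
      field_simp
    have hF : Real.exp (m * ((42 : ℕ) * m)) * Real.exp (-(m ^ 3 / 128)) *
        Real.exp ((4 : ℕ) * m) ≤ 1 := by
      rw [← Real.exp_add, ← Real.exp_add, Real.exp_le_one_iff, Nat.cast_ofNat, Nat.cast_ofNat]
      nlinarith [mul_le_mul_of_nonneg_right hx (sq_nonneg (m : ℝ)),
        mul_le_mul_of_nonneg_right hx h0.le]
    have hG : Real.exp (m * ((42 : ℕ) * m)) * Real.exp (-(m ^ 3 / 128)) * m ^ 4 ≤ 1 :=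
      le_trans (mul_le_mul_of_nonneg_left h4 (by positivity)) hF
    rw [hE]
    calc ((m ^ 2 : ℕ) : ℝ) * m * (2 * B + 1) ^ m * (2 * Real.exp (-(m ^ 3 / 128)))
        ≤ ((m ^ 2 : ℕ) : ℝ) * m * Real.exp (m * ((42 : ℕ) * m)) *
          (2 * Real.exp (-(m ^ 3 / 128))) := by gcongr
      _ = 2 / m * (Real.exp (m * ((42 : ℕ) * m)) * Real.exp (-(m ^ 3 / 128)) * m ^ 4) := by
          rw [Nat.cast_pow]
          field_simp
      _ ≤ 2 / m * 1 := by gcongr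
      _ < 1 / 2 := by
          rw [mul_one, div_lt_iff₀ h0]
          linarith
  · have h2 : (2 * m + 1) * 2 ≤ 2 ^ m := by
      have h3 : m - 3 < 2 ^ (m - 3) := Nat.lt_two_pow_self
      have h4 : 2 ^ m = 2 ^ (m - 3) * 8 := by
        rw [show (8 : ℕ) = 2 ^ 3 from rfl, ← pow_add, Nat.sub_add_cancel (by omega)]
      omega
    have h5 : (2 * m + 1) ^ m * 2 ≤ 2 ^ m ^ 2 := by
      calc (2 * m + 1) ^ m * 2 ≤ (2 * m + 1) ^ m * 2 ^ m :=
            Nat.mul_le_mul_left _ (by omega)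
        _ = ((2 * m + 1) * 2) ^ m := (mul_pow _ _ _).symm
        _ ≤ (2 ^ m) ^ m := Nat.pow_le_pow_left h2 m
        _ = _ := by rw [← pow_mul, sq]
    have h6 : (2 * m + 1 : ℝ) ^ m * 2 ≤ 2 ^ m ^ 2 := by exact_mod_cast h5
    rw [div_le_iff₀ (by positivity)]
    linarith

end Vale.Agent.P318.N
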