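import Vale.Agent.P318M.Co
import Vale.Agent.P318M.Ex2

/-! Parameters: S = m², N = m⁷, ε = 1/m², τ = m^16, η = m^37, ρ = m^39, Q = m^41, J = 40 * (Nat.log 2 m + 1), m ≥ max m0 8192 (8 (J + 1) ≤ m since 8 (40 k + 41) ≤ 2^k for k ≥ 13). K ≤ 9 √(log m), S Q^m (ρ+2)^m ≤ m^(82 m) = exp (82 m log m). Inst.mono; top2 from glue with p = 1/2 (Real.sqrt_eq_rpow, Real.rpow_one). -/

open Finset
open scoped BigOperators

noncomputable section

namespace Vale.Agent.P318.N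

variable {m S N τ η J B Q ρ : ℕ} {ε K : ℝ} {u : Dir S N m} {th : Fin S → Fin N → Fin τ}

theorem t2_pow {m : ℕ} (hm : 8192 ≤ m) (a b : ℕ) (h : a + 1 = b) : 8192 * m ^ a ≤ m ^ b := by
  rw [← h, pow_succ']
  exact Nat.mul_le_mul_right _ hm

theorem t2_k {k : ℕ} (hk : 13 ≤ k) : 8 * (40 * (k + 1) + 1) ≤ 2 ^ k := by
  induction k, hk using Nat.le_induction with
  | base => norm_num
  | succ k hk ih =>
    rw [pow_succ]
    omega

theorem t2_J {m : ℕ} (hm : 8192 ≤ m) : 8 * (40 * (Nat.log 2 m + 1) + 1) ≤ m :=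
  (t2_k (Nat.le_log_of_pow_le one_lt_two hm)).trans (Nat.pow_log_le_self 2 (by omega))

theorem t2_J2 {m : ℕ} (hm : 8192 ≤ m) : 2 * m ^ 39 ≤ 2 ^ (40 * (Nat.log 2 m + 1)) := by
  have h4 := t2_pow hm 39 40 rfl
  have h5 := Nat.pow_le_pow_left (Nat.lt_pow_succ_log_self one_lt_two m).le 40
  rw [← pow_mul, mul_comm] at h5
  exact le_trans (by omega) h5

theorem t2_N {m : ℕ} (hm : 8192 ≤ m) : ((m ^ 2 * ((m ^ 41) ^ m * (m ^ 39 + 2) ^ m) : ℕ) : ℝ) ≤
    Real.exp (82 * m * Real.log m) := by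
  have h0 : (0 : ℝ) < m := by exact_mod_cast (by omega : 0 < m)
  have h1 : m ^ 39 + 2 ≤ m ^ 40 := by
    have := t2_pow hm 39 40 rfl
    have : 1 ≤ m ^ 39 := Nat.one_le_pow _ _ (by omega)
    omega
  have h2 : m ^ 2 * ((m ^ 41) ^ m * (m ^ 39 + 2) ^ m) ≤ m ^ (82 * m) := by
    refine (Nat.mul_le_mul (Nat.pow_le_pow_right (by omega) (by omega : 2 ≤ m))
      (Nat.mul_le_mul_left _ (Nat.pow_le_pow_left h1 m))).trans_eq ?_
    ring
  have e : (82 * m : ℝ) = ((82 * m : ℕ) : ℝ) := by push_cast; ring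
  rw [e, Real.exp_nat_mul, Real.exp_log h0]
  exact_mod_cast h2

theorem t2_g {m : ℕ} (hm : 8192 ≤ m) : 1 / 10 ^ 6 * √m / √(Real.log m) ≤
    √m / (640 * (2 * √(16 * Real.log m) + 1) * 57) := by
  have h0 : (8192 : ℝ) ≤ m := by exact_mod_cast hm
  have h1 : 1 ≤ Real.log m := (Real.le_log_iff_exp_le (by linarith)).2
    (by linarith [Real.exp_one_lt_d9])
  have h2 : 1 ≤ √(Real.log m) := Real.one_le_sqrt.2 h1
  have h3 : √(16 * Real.log m) ≤ 4 * √(Real.log m) := by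
    rw [Real.sqrt_mul (by norm_num)]
    exact mul_le_mul_of_nonneg_right (Real.sqrt_le_iff.2 (by norm_num)) (by linarith)
  rw [one_div, inv_mul_eq_div, div_div]
  refine div_le_div_of_nonneg_left (Real.sqrt_nonneg _) (by positivity) ?_
  linarith

theorem inst_m2 : ∃ m0 : ℕ, ∀ m : ℕ, m0 ≤ m → Vale.Agent.P318N.Inst (Real.exp (82 * m * Real.log m))
    (1 / 10 ^ 6 * √m / √(Real.log m)) := by
  obtain ⟨m0, H⟩ := ex_dir2
  refine ⟨max m0 8192, fun m hm => ?_⟩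
  have h : 8192 ≤ m := (le_max_right _ _).trans hm
  have h0 : 0 < m := by omega
  have hr : (0 : ℝ) < m := by exact_mod_cast h0
  have p : ∀ a b, a ≤ b → m ^ a ≤ m ^ b := fun a b => Nat.pow_le_pow_right h0
  obtain ⟨u, u1, u2, u3⟩ := H m ((le_max_left _ _).trans hm) (m ^ 37) (m ^ 41 + m ^ 39)
    (by have := p 39 41 (by omega); omega)
  refine (core2 (τ := m ^ 16) (J := 40 * (Nat.log 2 m + 1)) h0 u1 (by positivity) (by positivity)
    (by positivity) (by positivity) (by positivity) (le_add_of_nonneg_left (by positivity)) u3 u2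
    ?_ ?_ ?_ ?_ ?_ ?_).mono (by positivity) (t2_N h) (t2_g h)
  · have : 40 * m ^ 36 ≤ m ^ 37 := by have := t2_pow h 36 37 rfl; omega
    have : (40 * m ^ 36 : ℝ) ≤ m ^ 37 := by exact_mod_cast this
    rw [one_div, inv_mul_eq_div, le_div_iff₀ (by positivity)]
    push_cast
    linarith
  · have : (2 * m ^ 39 : ℝ) ≤ 2 ^ (40 * (Nat.log 2 m + 1)) := by exact_mod_cast t2_J2 h
    rw [div_div_eq_mul_div, div_one]
    push_cast
    linarith
  · have h1 : (8 * (((40 * (Nat.log 2 m + 1) : ℕ) : ℝ) + 1)) ≤ m := by exact_mod_cast t2_J h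
    generalize (((40 * (Nat.log 2 m + 1) : ℕ) : ℝ) + 1) = a at h1
    have e : 8 * (m : ℝ) * (a * (1 / (m : ℝ) ^ 2)) = 8 * a / m := by field_simp
    rw [e, div_le_one hr]
    exact h1
  · have := t2_pow h 15 16 rfl
    have e : 64 * m * (m ^ 7) ^ 2 = 64 * m ^ 15 := by ring
    omega
  · have := t2_pow h 40 41 rfl
    have := p 1 40 (by omega)
    have := p 18 40 (by omega)
    have := p 37 40 (by omega)
    have e : 20 * (m * (m ^ 39 + 1) + 2 * m ^ 2 * m ^ 16 + 144 * m ^ 37) =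
      20 * m ^ 40 + 20 * m ^ 1 + 40 * m ^ 18 + 2880 * m ^ 37 := by ring
    omega
  · have := t2_pow h 38 39 rfl
    have := p 1 38 (by omega)
    have := p 19 38 (by omega)
    have e : 4 * m * (1 + 2 * m ^ 2 * m ^ 16 + 144 * m ^ 37) =
      4 * m ^ 1 + 8 * m ^ 19 + 576 * m ^ 38 := by ring
    omega

theorem top2 : ∃ c0 : ℝ, 0 < c0 ∧ ∃ n0 : ℕ, ∀ n : ℕ, n0 ≤ n → ∃ c : Fin n → Fin n → ℝ, IsCap c ∧
    0 < glValue c ∧ c0 * √(Real.log n) / Real.log (Real.log n) ≤ sparsity c / glValue c := by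
  obtain ⟨m0, h⟩ := inst_m2
  have := Vale.Agent.P318N.glue (A := 82) (B := 1 / 10 ^ 6) (p := 1 / 2) (by norm_num) (by norm_num)
    (by norm_num) m0 fun m hm => by
      rw [← Real.sqrt_eq_rpow]
      exact h m hm
  rw [show (1 / 2 + 1 / 2 : ℝ) = 1 by norm_num] at this
  simp only [Real.rpow_one] at this
  exact this

end Vale.Agent.P318.N
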