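import Vale.Agent.P318M.B
import Vale.Agent.P318M.C
import Vale.Agent.P318M.Bd
import Vale.Agent.P318N.Tri

/-! The triangle inequality. -/

open Finset
open scoped BigOperators

noncomputable section

namespace Vale.Agent.P318.N

variable {m S N τ η J B Q ρ : ℕ} {ε K : ℝ} {u : Dir S N m} {th : Fin S → Fin N → Fin τ}

theorem pv_pick {D M : ℝ} (hη : 0 < η) (hε : 0 ≤ ε) (hM : M ≤ 2 ^ J) {p q r : Vx S m}
    (a1 : D ≤ 2 * tri_t u th ε η p q) (a2 : D ≤ 2 * tri_t u th ε η q r) (a3 : D ≤ 2 * η)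
    (a4 : D ≤ M * (tri_t u th ε η p q * tri_t u th ε η q r) / η) :
    D ≤ 16 * (pv u th ε η J p q + pv u th ε η J q r - pv u th ε η J p r) := by
  have he : (0 : ℝ) < η := by exact_mod_cast hη
  have t1 := tri_nonneg (u := u) (th := th) (η := η) hε p q
  have t2 := tri_nonneg (u := u) (th := th) (η := η) hε q r
  obtain ⟨j, hj, b⟩ := scale_pick he t1 t2 hM a1 a2 a3 a4
  have hl : ∀ j : ℕ, (0 : ℝ) < η / 2 ^ j := fun j => by positivity
  have c := single_le_sum (f := fun j : ℕ => (η : ℝ) / 2 ^ j *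
      (min (tri_t u th ε η p q / (η / 2 ^ j)) 1 * min (tri_t u th ε η q r / (η / 2 ^ j)) 1))
    (fun j _ => mul_nonneg (hl j).le (mul_nonneg (le_min (div_nonneg t1 (hl j).le) zero_le_one)
      (le_min (div_nonneg t2 (hl j).le) zero_le_one))) (mem_range.2 (Nat.lt_succ_of_le hj))
  have d := sum_le_sum fun j (_ : j ∈ range (J + 1)) =>
    mul_le_mul_of_nonneg_left (tri_k (u := u) (th := th) (η := η) hε (hl j) p q r) (hl j).le
  have e : ∑ j ∈ range (J + 1), (η : ℝ) / 2 ^ j * (4 * ((1 - kk u th ε (η / 2 ^ j) p q) +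
      (1 - kk u th ε (η / 2 ^ j) q r) - (1 - kk u th ε (η / 2 ^ j) p r))) =
      4 * (pv u th ε η J p q + pv u th ε η J q r - pv u th ε η J p r) := by
    rw [pv, pv, pv, ← sum_add_distrib, ← sum_sub_distrib, mul_sum]
    exact sum_congr rfl fun j _ => by ring
  rw [e] at d
  linarith

theorem pv_tri (hη : 0 < η) (hε : 0 ≤ ε) (p q r : Vx S m) :
    0 ≤ pv u th ε η J p q + pv u th ε η J q r - pv u th ε η J p r := by
  have t1 := tri_nonneg (u := u) (th := th) (η := η) hε p q
  have t2 := tri_nonneg (u := u) (th := th) (η := η) hε q r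
  have := pv_pick (u := u) (th := th) (J := J) (D := 0) (M := 0) hη hε (by positivity)
    (p := p) (q := q) (r := r) (by positivity) (by positivity) (by positivity) (by simp)
  linarith

theorem pv_zero (p q : Vx S m) : pv u th ε η 0 p q = η * (1 - kk u th ε η p q) := by
  simp [pv]

theorem p1_tri (hη : 0 < η) (p q r : Vx S m) :
    0 ≤ p1 u th η p q + p1 u th η q r - p1 u th η p r := by
  rw [p1, p1, p1, ← expect_add_distrib, ← expect_sub_distrib]
  exact expect_nonneg fun i _ => pv_tri hη le_rfl p q r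

theorem p1_phi (hη : 0 < η) (s : Fin S) (x y z : Pt m) :
    (𝔼 i, th1 η (τ * (lab u th s i x - lab u th s i z))) -
      (𝔼 i, th1 η (τ * (lab u th s i x - lab u th s i y))) -
      (𝔼 i, th1 η (τ * (lab u th s i y - lab u th s i z))) ≤
    40 * (p1 u th η (s, x) (s, y) + p1 u th η (s, y) (s, z) - p1 u th η (s, x) (s, z)) := by
  have he : (0 : ℝ) < η := by exact_mod_cast hη
  rw [p1, p1, p1, ← expect_add_distrib, ← expect_sub_distrib, ← expect_sub_distrib,
    ← expect_sub_distrib, mul_expect]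
  refine expect_le_expect fun i _ => ?_
  have a := phi hη (τ * (lab u th s i x - lab u th s i y)) (τ * (lab u th s i y - lab u th s i z))
  rw [← mul_add, sub_add_sub_cancel] at a
  have b := tri_k2 (u := uo u i) (th := to1 th i) (ε := 0) le_rfl he (s, x) (s, y) (s, z)
  have k : ∀ v w : Pt m, Real.exp (-(|((τ * (lab u th s i v - lab u th s i w) : ℤ) : ℝ)| / η)) =
      kk (uo u i) (to1 th i) 0 η (s, v) (s, w) := fun v w => by
    rw [kk, if_pos rfl, ds_uo]
    push_cast
    rw [abs_mul, Nat.abs_cast]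
  rw [k, k] at a
  rw [pv_zero, pv_zero, pv_zero]
  nlinarith [mul_le_mul_of_nonneg_left b he.le]

theorem one_le_dist {x y : Pt m} (h : x ≠ y) : 1 ≤ ∑ k, |(x k : ℝ) - y k| := by
  obtain ⟨k, hk⟩ := Function.ne_iff.1 h
  refine le_trans ?_ (single_le_sum (f := fun k => |(x k : ℝ) - y k|) (fun _ _ => abs_nonneg _)
    (mem_univ k))
  have := Int.one_le_abs (sub_ne_zero.2 hk)
  exact_mod_cast this

theorem box_sub {s s' : Fin S} {x y : Pt m} (hx : (s, x) ∈ Box S m B) (hy : (s', y) ∈ Box S m B)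
    (l : Fin m) : |(x - y) l| ≤ B := by
  have a := hx l
  have b := hy l
  rw [Pi.sub_apply, abs_le]
  constructor <;> linarith [a.1, a.2, b.1, b.2]

theorem d2_tri (hu : Sgn u) (hτ : 0 < τ) (hη : 0 < η) (hN : 0 < N) (hε : 0 < ε) (hU : UC u η B ε)
    (h : 40 * S * τ ^ 2 ≤ ε * η) (hJ : 2 * η / ε ≤ 2 ^ J) {p q r : Vx S m}
    (hp : p ∈ Box S m B) (hq : q ∈ Box S m B) (hr : r ∈ Box S m B) :
    d2 u th ε η J p r ≤ d2 u th ε η J p q + d2 u th ε η J q r := by
  have he : (0 : ℝ) < η := by exact_mod_cast hη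
  have hS : (1 : ℝ) ≤ S := by exact_mod_cast p.1.pos
  have hτ1 : (1 : ℝ) ≤ τ := by exact_mod_cast hτ
  have hτ2 : (τ : ℝ) ≤ τ ^ 2 := by nlinarith
  have h' : 40 * S * τ ≤ ε * η := le_trans (by gcongr) h
  have h24 : 24 ≤ ε * η := by nlinarith [mul_le_mul hS hτ1 zero_le_one (zero_le_one.trans hS)]
  have s0 := pv_tri (u := u) (th := th) (J := 0) hη hε.le p q r
  have s1 := pv_tri (u := uz S m) (th := tz S τ) (J := J) hη hε.le p q r
  have s2 := p1_tri (u := u) (th := th) hη p q r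
  have t1 := tri_nonneg (u := u) (th := th) (η := η) hε.le p q
  have t2 := tri_nonneg (u := u) (th := th) (η := η) hε.le q r
  have a3 : sm u th η p r - sm u th η p q - sm u th η q r ≤ 2 * η := tri_exp hN fun s i => by
    have b1 := th1_le (η := η) (yy u th p s i - yy u th r s i)
    have b2 := le_th1 hη (yy u th p s i - yy u th q s i)
    have b3 := le_th1 hη (yy u th q s i - yy u th r s i)
    push_cast at b1 b2 b3
    linarith [abs_sub_le (yy u th p s i : ℝ) (yy u th q s i) (yy u th r s i)]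
  have a1 : sm u th η p r - sm u th η p q - sm u th η q r ≤ 2 * tri_t u th ε η p q := by
    by_cases h1 : p.1 = q.1
    · obtain ⟨s, x⟩ := p
      obtain ⟨s', x'⟩ := q
      obtain rfl : s = s' := h1
      have b := sm_lip (th := th) hu hτ hη hN hU h' s (x' := x') hp hr
      rw [tri_t, if_pos rfl] at t1 ⊢
      linarith [sm_nonneg (u := u) (th := th) (η := η) (s, x) (s, x')]
    · rwa [tri_t, if_neg h1]
  have a2 : sm u th η p r - sm u th η p q - sm u th η q r ≤ 2 * tri_t u th ε η q r := by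
    by_cases h1 : q.1 = r.1
    · obtain ⟨s, x⟩ := q
      obtain ⟨s', x'⟩ := r
      obtain rfl : s = s' := h1
      have b := sm_lip (th := th) hu hτ hη hN hU h' s (x' := x) hr hp
      rw [tri_t, if_pos rfl] at t2 ⊢
      rw [sm_comm _ p, sm_comm _ p, ds_comm] at b
      linarith [sm_nonneg (u := u) (th := th) (η := η) (s, x) (s, x')]
    · rwa [tri_t, if_neg h1]
  have top : ∀ t : ℝ, sm u th η p r - sm u th η p q - sm u th η q r ≤ 2 * t →
      min (tri_t u th ε η p q / η) 1 * min (tri_t u th ε η q r / η) 1 = min (t / η) 1 →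
      d2 u th ε η J p r ≤ d2 u th ε η J p q + d2 u th ε η J q r := fun t ht e => by
    have b := mul_le_mul_of_nonneg_left (tri_k (u := u) (th := th) (η := η) hε.le he p q r) he.le
    rw [e] at b
    have c : sm u th η p r - sm u th η p q - sm u th η q r ≤ 2 * (η * min (t / η) 1) := by
      rw [mul_min_of_nonneg _ _ he.le, mul_div_cancel₀ _ he.ne', mul_one, mul_min_of_nonneg _ _ zero_le_two]
      exact le_min ht a3
    rw [pv_zero, pv_zero, pv_zero] at s0
    simp only [d2, dd, pv_zero]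
    linarith
  by_cases h1 : p.1 = q.1
  swap
  · exact top _ a2 (by rw [show tri_t u th ε η p q = η from if_neg h1, div_self he.ne', min_self,
      one_mul])
  by_cases h2 : q.1 = r.1
  swap
  · exact top _ a1 (by rw [show tri_t u th ε η q r = η from if_neg h2, div_self he.ne', min_self,
      mul_one])
  obtain ⟨s, x⟩ := p
  obtain ⟨s', y⟩ := q
  obtain ⟨s'', z⟩ := r
  obtain rfl : s = s' := h1
  obtain rfl : s = s'' := h2
  by_cases hxy : x = y
  · subst hxy
    rw [d2_self, zero_add]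
  by_cases hyz : y = z
  · subst hyz
    rw [d2_self, add_zero]
  have o1 := one_le_dist hxy
  have o2 := one_le_dist hyz
  have f1 := abs_le.1 (sm_dec (u := u) (th := th) hτ hη s x z)
  have f2 := abs_le.1 (sm_dec (u := u) (th := th) hτ hη s x y)
  have f3 := abs_le.1 (sm_dec (u := u) (th := th) hτ hη s y z)
  have f4 := p1_phi (u := u) (th := th) hη s x y z
  have herr : 6 * S * τ ^ 2 / η ≤ ε / 6 := by
    rw [div_le_iff₀ he]
    have : (0 : ℝ) ≤ S * τ ^ 2 := by positivity
    nlinarith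
  have hz : ∀ l, |(0 : Pt m) l| ≤ B := fun l => by simp
  have g1 := ee_lip hu hη hU h24 s (box_sub hq hr) (box_sub hp hr)
  have g2 := ee_lip hu hη hU h24 s (box_sub hp hq) hz
  have g3 := ee_lip hu hη hU h24 s (box_sub hp hq) (box_sub hp hr)
  have g4 := ee_lip hu hη hU h24 s (box_sub hq hr) hz
  rw [ee_zero] at g2 g4
  have e1 : ∑ k, |(((x - z) k : ℤ) : ℝ) - ((y - z) k : ℤ)| = ∑ k, |(x k : ℝ) - y k| :=
    sum_congr rfl fun k _ => by simp
  have e2 : ∑ k, |(((0 : Pt m) k : ℤ) : ℝ) - ((x - y) k : ℤ)| = ∑ k, |(x k : ℝ) - y k| :=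
    sum_congr rfl fun k _ => by simp [abs_sub_comm]
  have e3 : ∑ k, |(((x - z) k : ℤ) : ℝ) - ((x - y) k : ℤ)| = ∑ k, |(y k : ℝ) - z k| :=
    sum_congr rfl fun k _ => by simp
  have e4 : ∑ k, |(((0 : Pt m) k : ℤ) : ℝ) - ((y - z) k : ℤ)| = ∑ k, |(y k : ℝ) - z k| :=
    sum_congr rfl fun k _ => by simp [abs_sub_comm]
  rw [e1] at g1
  rw [e2] at g2
  rw [e3] at g3
  rw [e4] at g4
  have u1 : tri_t (uz S m) (tz S τ) ε η (s, x) (s, y) = ε * ∑ k, |(x k : ℝ) - y k| := by
    rw [tri_t, if_pos rfl, ds_uz]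
  have u2 : tri_t (uz S m) (tz S τ) ε η (s, y) (s, z) = ε * ∑ k, |(y k : ℝ) - z k| := by
    rw [tri_t, if_pos rfl, ds_uz]
  generalize (∑ k, |(x k : ℝ) - y k|) = a at o1 g1 g2 u1
  generalize (∑ k, |(y k : ℝ) - z k|) = b at o2 g3 g4 u2
  have v1 : ε ≤ ε * a := le_mul_of_one_le_right hε.le o1
  have v2 : ε ≤ ε * b := le_mul_of_one_le_right hε.le o2
  set P := 40 * (p1 u th η (s, x) (s, y) + p1 u th η (s, y) (s, z) - p1 u th η (s, x) (s, z))
    with hP
  set D := sm u th η (s, x) (s, z) - sm u th η (s, x) (s, y) - sm u th η (s, y) (s, z) with hD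
  have w1 : min (D - P) (2 * η) ≤ 2 * (ε * a) := (min_le_left _ _).trans (by linarith [f1.2, f2.1, f3.1])
  have w2 : min (D - P) (2 * η) ≤ 2 * (ε * b) := (min_le_left _ _).trans (by linarith [f1.2, f2.1, f3.1])
  have w3 := pv_pick (u := uz S m) (th := tz S τ) (D := min (D - P) (2 * η)) hη hε.le hJ
    (p := (s, x)) (q := (s, y)) (r := (s, z)) (by rwa [u1]) (by rwa [u2]) (min_le_right _ _) (by
      rw [u1, u2]
      refine w1.trans ?_
      rw [show 2 * (η : ℝ) / ε * (ε * a * (ε * b)) / η = 2 * (ε * a) * b by field_simp]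
      exact le_mul_of_one_le_right (by positivity) o2)
  have w4 : D - P ≤ min (D - P) (2 * η) := le_min le_rfl (by linarith)
  simp only [d2, dd]
  linarith

end Vale.Agent.P318.N
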